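import Vale.Agent.P297.H72.Z2.G6
import Vale.Agent.P297.H160.Z2Six

/-!
General numerical Godeaux surfaces with torsion of order two: the node of LINK6.
-/

set_option linter.unusedSectionVars false
set_option linter.unusedVariables false
set_option linter.style.haveILetI false

open Polynomial

namespace Vale.Agent.P297.H72.Z2

open Vale.Agent.P297.Z2 Vale.Agent.P297.H160.Z2Irr Vale.Agent.P297.Gen Vale.Agent.P297.H430.Z2

variable {N : Type} [Field N] [Algebra ℂ N] [IsAlgClosed N] {P : Par}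

/-- **For every line over the general `(l, y)` there is a node which is good in every respect.** -/
theorem exists_good6 (hP : NC P) (hM : P.M1 = 0) (hQ1 : P.Q1 ≠ 0)
    {l y p0 p1 r0 r1 s0 s1 s2 : N} (hi : AlgebraicIndependent ℂ ![l, y])
    (hY : YLine P l y p0 p1 r0 r1 s0 s1 s2) :
    ∃ al be : N, IsNode P l al be ∧ al ∈ cl0 ({l} : Set N) ∧ be ∈ cl0 ({l} : Set N) ∧
      (∀ z p r s s', NLine P l al be p r s s' → al * y + p = p0 + p1 * z →
        -be * y + r = r0 + r1 * z → p ∉ cl0 ({l} : Set N) ∨ r ∉ cl0 ({l} : Set N)) ∧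
      p1 ≠ 0 ∧ dg6 l al be p1 r1 ≠ 0 ∧ ∀ h c0 c1 c2 : N,
        (∀ z, (ntd P l al be).B2 (p0 - al * y + p1 * h + p1 * z)
          (r0 + be * y + r1 * h + r1 * z) = c0 + c1 * z + c2 * z ^ 2) →
        c1 ^ 2 - 4 * c0 * c2 ≠ 0 := by
  haveI : CharZero N := charZero_of_injective_algebraMap (algebraMap ℂ N).injective
  obtain ⟨al, be, hn, h1, h2, h3⟩ := H160.Z2Six.exists_good_node hP hM hi hY
  exact ⟨al, be, hn, h1, h2, h3, g6 hP hM hQ1 hi hn hY⟩

end Vale.Agent.P297.H72.Z2
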