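import Vale.Agent.P297.H160.Z2Par

/-!
General numerical Godeaux surfaces with torsion of order two: the double solids `T_l`, the equation
of the surface in them and the dictionary between the coordinates.

The letters: `U = y + u`, `V = y + v`, `a = 2 y + Q0`, `c = 2 y + Q1`, `e = n - y ^ 2 + P1 y`,
`m = m - y ^ 2`, `A = P0`, `B = P2`.
-/

set_option linter.unusedSectionVars false
set_option linter.unusedVariables false

namespace Vale.Agent.P297.Z2

open Vale.Agent.P297.H160.Z2Irr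

/-- The coefficients over a value of `y`. -/
structure Dat (R : Type*) where
  U : R
  V : R
  a : R
  c : R
  e : R
  m : R
  A : R
  B : R

namespace Dat

section ring

variable {R : Type*} [CommRing R] (D : Dat R)

/-- the three minors: the net of the twisted cubic -/
def N (p r : R) : R := p * r - D.A * D.B

def E (p : R) : R := D.V * p + D.B * D.U

def F (r : R) : R := D.U * r + D.A * D.V

def J0 (p r : R) : R := (p + r) ^ 2 + D.a * p + D.c * r - D.m

def J1 (p r : R) : R := D.U * p + D.V * r - D.e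

def K (l p r : R) : R := D.J0 p r - l * D.J1 p r - 2 * D.N p r

/-- **The branch quartic**: `T_l` is `Σ ^ 2 = Bq l p r`. -/
def Bq (l p r : R) : R :=
  D.K l p r ^ 2 - 4 * (D.N p r ^ 2 - l * D.N p r * (D.E p + D.F r) + (l ^ 2 - l) * D.E p * D.F r)

def g : R := D.U * D.V * D.e + D.A * D.V ^ 3 + D.B * D.U ^ 3

/-- the sextic of the six nodes (in `y`) -/
def h (l : R) : R :=
  (D.B * D.U ^ 2 + D.A * D.V ^ 2) ^ 2 - D.a * D.B * D.U ^ 3 * D.V - D.c * D.A * D.V ^ 3 * D.U -
    D.m * D.U ^ 2 * D.V ^ 2 + l * D.U * D.V * D.g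

/-- `(g E - h) / V` -/
def al (l p : R) : R :=
  D.g * p + D.B * D.U ^ 2 * D.e + D.A * D.B * D.U * D.V ^ 2 - 2 * D.A * D.B * D.U ^ 2 * D.V -
    D.A ^ 2 * D.V ^ 3 + D.a * D.B * D.U ^ 3 + D.c * D.A * D.U * D.V ^ 2 + D.m * D.U ^ 2 * D.V -
    l * D.U * D.g

/-- `(g F - h) / U` -/
def be (l r : R) : R :=
  D.g * r + D.A * D.V ^ 2 * D.e + D.A * D.B * D.U ^ 2 * D.V - 2 * D.A * D.B * D.U * D.V ^ 2 -
    D.B ^ 2 * D.U ^ 3 + D.a * D.B * D.U ^ 2 * D.V + D.c * D.A * D.V ^ 3 + D.m * D.U * D.V ^ 2 -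
    l * D.V * D.g

theorem V_mul_al (l p : R) : D.V * D.al l p = D.g * D.E p - D.h l := by
  unfold al E h g
  ring

theorem U_mul_be (l r : R) : D.U * D.be l r = D.g * D.F r - D.h l := by
  unfold be F h g
  ring

/-- **The equation of the surface in `T_l`**, linear in `Σ = S`. -/
def Phi (l p r S : R) : R :=
  D.al l p * D.U * D.E p * (D.K l p r + S) + D.be l r * D.V * D.F r * (D.K l p r - S) -
    4 * D.g * D.N p r * D.E p * D.F r + 2 * D.h l * D.N p r * (D.E p + D.F r) +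
    2 * l * D.E p * D.F r * (D.g * (D.E p + D.F r) - 2 * D.h l) + 2 * D.h l * D.E p * D.F r

/-- the numerators of the tricanonical coordinates: `s = sN / (2 U V)`, `t = tN / (2 U V)` -/
def sN (l p r S : R) : R :=
  -(D.U ^ 2 * (D.K l p r + S)) + 2 * ((r - l * D.V) * D.U - D.A * D.V) * D.F r

def tN (l p r S : R) : R :=
  D.V ^ 2 * (D.K l p r - S) - 2 * ((p - l * D.U) * D.V - D.B * D.U) * D.E p

/-- `2 U V` times the cubic form `t r ^ 2 - s p ^ 2` -/
def Kc (l p r S : R) : R := D.tN l p r S * D.F r ^ 2 - D.sN l p r S * D.E p ^ 2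

/-- the linear form -/
theorem L_eq (l p r S : R) : D.U ^ 2 * D.tN l p r S - D.V ^ 2 * D.sN l p r S -
    2 * D.U * D.V * (D.a * D.U * D.E p + D.c * D.V * D.F r) = 2 * D.h l := by
  unfold tN sN K J0 J1 h E F N g
  ring

/-- **The second equation of the surface** in the tricanonical coordinates is `Phi`. -/
theorem Phi_eq (l p r S : R) : D.U * D.V * D.Phi l p r S = D.g * D.Kc l p r S +
    D.h l * (D.E p * D.sN l p r S - D.F r * D.tN l p r S) +
    2 * D.h l * D.E p * D.F r * (D.U * D.V + D.A * D.V + D.B * D.U) -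
    2 * D.h l * D.B * D.U * D.F r ^ 2 - 2 * D.h l * D.A * D.V * D.E p ^ 2 := by
  have h1 := D.V_mul_al l p
  have h2 := D.U_mul_be l r
  unfold Phi
  rw [show D.U * D.V * (D.al l p * D.U * D.E p * (D.K l p r + S) +
      D.be l r * D.V * D.F r * (D.K l p r - S) -
    4 * D.g * D.N p r * D.E p * D.F r + 2 * D.h l * D.N p r * (D.E p + D.F r) +
    2 * l * D.E p * D.F r * (D.g * (D.E p + D.F r) - 2 * D.h l) + 2 * D.h l * D.E p * D.F r) =
    D.U ^ 2 * D.E p * (D.K l p r + S) * (D.V * D.al l p) +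
      D.V ^ 2 * D.F r * (D.K l p r - S) * (D.U * D.be l r) + D.U * D.V * (-
    4 * D.g * D.N p r * D.E p * D.F r + 2 * D.h l * D.N p r * (D.E p + D.F r) +
    2 * l * D.E p * D.F r * (D.g * (D.E p + D.F r) - 2 * D.h l) + 2 * D.h l * D.E p * D.F r) by ring,
    h1, h2]
  generalize D.g = g
  generalize D.h l = h
  unfold Kc tN sN
  generalize D.K l p r = k
  unfold E F N
  ring

/-- four times the numerator of the quadratic form `Q₀` -/
def q0 (l p r S : R) : R :=
  (D.sN l p r S + 4 * D.A * D.V * D.F r) * (D.tN l p r S - 4 * D.B * D.U * D.E p) +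
    4 * (D.A * D.V * D.E p + D.B * D.U * D.F r) ^ 2

/-- **The cubic equation.** -/
theorem cubic_eq (l p r S : R) : D.U ^ 2 * D.V ^ 2 * (S ^ 2 - D.Bq l p r) =
    -(2 * D.Kc l p r S) + D.q0 l p r S +
    l * (2 * D.U * D.V * (D.F r * D.tN l p r S - D.E p * D.sN l p r S) +
      4 * D.U * D.V * (D.E p - D.F r) * (D.A * D.V * D.E p - D.B * D.U * D.F r) -
      4 * D.U ^ 2 * D.V ^ 2 * D.E p * D.F r) := by
  unfold q0 Kc tN sN Bq
  generalize D.K l p r = k
  unfold E F N
  ring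

end ring

section field

variable {k : Type*} [Field k] [CharZero k] (D : Dat k) {l p r S : k}

/-- the square of the affine coordinate `p` -/
def X (l p r S : k) : k := -(2 * D.E p ^ 2 * D.h l) / D.Kc l p r S

/-- the ratio `r / p` -/
def kap (p r : k) : k := D.F r / D.E p

def sg (l p r S : k) : k := D.sN l p r S / (2 * D.U * D.V * D.E p)

def ta (l p r S : k) : k := D.tN l p r S / (2 * D.U * D.V * D.E p)

theorem eq1 (hU : D.U ≠ 0) (hV : D.V ≠ 0) (hE : D.E p ≠ 0) (hK : D.Kc l p r S ≠ 0) :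
    D.X l p r S * (D.kap p r ^ 2 * D.ta l p r S - D.sg l p r S) + D.U ^ 2 * D.ta l p r S -
      D.V ^ 2 * D.sg l p r S = D.a * D.U + D.c * D.kap p r * D.V := by
  have h1 := D.L_eq l p r S
  have h2 : D.Kc l p r S = D.tN l p r S * D.F r ^ 2 - D.sN l p r S * D.E p ^ 2 := rfl
  have h3 : D.X l p r S * (D.kap p r ^ 2 * D.ta l p r S - D.sg l p r S) =
      -(D.h l) / (D.U * D.V * D.E p) := by
    have h4 : D.kap p r ^ 2 * D.ta l p r S - D.sg l p r S =
        D.Kc l p r S / (2 * D.U * D.V * D.E p ^ 3) := by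
      rw [h2]
      unfold kap ta sg
      field_simp
    rw [h4]
    unfold X
    field_simp
  rw [h3]
  unfold ta sg kap
  field_simp
  linear_combination h1

theorem eq2 (hU : D.U ≠ 0) (hV : D.V ≠ 0) (hE : D.E p ≠ 0) (hK : D.Kc l p r S ≠ 0)
    (hPhi : D.Phi l p r S = 0) :
    D.X l p r S * (D.sg l p r S - D.kap p r * D.ta l p r S + (1 + D.A / D.U + D.B / D.V) * D.kap p r -
      D.B / D.V * D.kap p r ^ 2 - D.A / D.U) = D.e + D.B / D.V * D.U ^ 2 + D.A / D.U * D.V ^ 2 := by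
  have h1 := D.Phi_eq l p r S
  rw [hPhi, mul_zero] at h1
  have h2 : D.e + D.B / D.V * D.U ^ 2 + D.A / D.U * D.V ^ 2 = D.g / (D.U * D.V) := by
    unfold g
    field_simp
    ring
  rw [h2]
  unfold X kap ta sg
  field_simp
  linear_combination h1

theorem eq3 (hU : D.U ≠ 0) (hV : D.V ≠ 0) (hE : D.E p ≠ 0) (hK : D.Kc l p r S ≠ 0)
    (hh : D.h l ≠ 0) (hS : S ^ 2 = D.Bq l p r) (hPhi : D.Phi l p r S = 0) :
    D.X l p r S * ((D.sg l p r S + 2 * (D.A / D.U) * D.kap p r) * (D.ta l p r S - 2 * (D.B / D.V)) +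
      (D.A / D.U + D.B / D.V * D.kap p r) ^ 2) =
    D.m + D.A / D.U * D.c * D.V + D.B / D.V * D.a * D.U -
      (D.A / D.U * D.V + D.B / D.V * D.U) ^ 2 := by
  have h1 := D.Phi_eq l p r S
  rw [hPhi, mul_zero] at h1
  have h3 := D.cubic_eq l p r S
  rw [hS, sub_self, mul_zero] at h3
  have h2 : D.m + D.A / D.U * D.c * D.V + D.B / D.V * D.a * D.U -
      (D.A / D.U * D.V + D.B / D.V * D.U) ^ 2 =
      (-(D.h l) + l * D.U * D.V * D.g) / (D.U ^ 2 * D.V ^ 2) := by
    unfold h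
    field_simp
    ring
  have h4 : D.X l p r S * ((D.sg l p r S + 2 * (D.A / D.U) * D.kap p r) *
      (D.ta l p r S - 2 * (D.B / D.V)) + (D.A / D.U + D.B / D.V * D.kap p r) ^ 2) =
      -(D.h l) * D.q0 l p r S / (2 * D.U ^ 2 * D.V ^ 2 * D.Kc l p r S) := by
    unfold X kap ta sg q0
    field_simp
    ring
  rw [h2, h4]
  have hU2 : D.U ^ 2 * D.V ^ 2 ≠ 0 := mul_ne_zero (pow_ne_zero 2 hU) (pow_ne_zero 2 hV)
  have hU3 : 2 * D.U ^ 2 * D.V ^ 2 * D.Kc l p r S ≠ 0 :=
    mul_ne_zero (by rw [mul_assoc]; exact mul_ne_zero two_ne_zero hU2) hK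
  rw [div_eq_div_iff hU3 hU2]
  linear_combination D.h l * D.U ^ 2 * D.V ^ 2 * h3 + 2 * l * D.U ^ 3 * D.V ^ 3 * h1

end field

end Dat

section par

variable {R : Type*} [CommRing R] [Algebra ℂ R] (P : Par)

/-- The letters over `y`. -/
def dat (y : R) : Dat R where
  U := fU P y
  V := fV P y
  a := fa P y
  c := fc P y
  e := fe P y
  m := fm P y
  A := algebraMap ℂ R P.P0
  B := algebraMap ℂ R P.P2

variable {R' : Type*} [CommRing R'] [Algebra ℂ R'] (f : R →ₐ[ℂ] R')

/-- the image of a datum -/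
def Dat.map {R R' : Type*} (D : Dat R) (f : R → R') : Dat R' where
  U := f D.U
  V := f D.V
  a := f D.a
  c := f D.c
  e := f D.e
  m := f D.m
  A := f D.A
  B := f D.B

theorem map_dat (y : R) : (dat P y).map f = dat P (f y) := by
  simp only [Dat.map, dat, map_fU, map_fV, map_fa, map_fc, map_fe, map_fm, AlgHom.commutes]

/-- The branch quartic of `T_l` at `(p, r, y)`. -/
def tB (l p r y : R) : R := (dat P y).Bq l p r

/-- The equation of the surface in `T_l`. -/
def tPhi (l p r y S : R) : R := (dat P y).Phi l p r S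

theorem map_tB (l p r y : R) : f (tB P l p r y) = tB P (f l) (f p) (f r) (f y) := by
  unfold tB
  rw [← map_dat]
  simp only [Dat.Bq, Dat.K, Dat.J0, Dat.J1, Dat.N, Dat.E, Dat.F, Dat.map, map_add, map_sub,
    map_mul, map_pow, map_ofNat]

theorem map_tPhi (l p r y S : R) :
    f (tPhi P l p r y S) = tPhi P (f l) (f p) (f r) (f y) (f S) := by
  unfold tPhi
  rw [← map_dat]
  simp only [Dat.Phi, Dat.al, Dat.be, Dat.h, Dat.g, Dat.K, Dat.J0, Dat.J1, Dat.N, Dat.E, Dat.F,
    Dat.map, map_add, map_sub, map_mul, map_pow, map_ofNat]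

end par

section point

variable {k : Type*} [Field k] [Algebra ℂ k] (P : Par)

/-- **The point of the surface with coordinates `(x, k, y, σ, τ)`** from a point `(p, r, y, S)`
of the double solid `T_l`. -/
def toS (l p r y S : k) : Fin 5 → k :=
  ![(dat P y).X l p r S, (dat P y).kap p r, y, (dat P y).sg l p r S, (dat P y).ta l p r S]

variable {P} {l p r y S : k}

theorem toS_E1 [CharZero k] (hU : fU P y ≠ 0) (hV : fV P y ≠ 0) (hE : (dat P y).E p ≠ 0)
    (hK : (dat P y).Kc l p r S ≠ 0) :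
    E1 P (toS P l p r y S 0) (toS P l p r y S 1) y (toS P l p r y S 3) (toS P l p r y S 4) :=
  (dat P y).eq1 hU hV hE hK

theorem toS_E2 [CharZero k] (hU : fU P y ≠ 0) (hV : fV P y ≠ 0) (hE : (dat P y).E p ≠ 0)
    (hK : (dat P y).Kc l p r S ≠ 0) (hPhi : tPhi P l p r y S = 0) :
    E2 P (toS P l p r y S 0) (toS P l p r y S 1) y (toS P l p r y S 3) (toS P l p r y S 4) :=
  (dat P y).eq2 hU hV hE hK hPhi

theorem toS_E3 [CharZero k] (hU : fU P y ≠ 0) (hV : fV P y ≠ 0) (hE : (dat P y).E p ≠ 0)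
    (hK : (dat P y).Kc l p r S ≠ 0) (hh : (dat P y).h l ≠ 0) (hS : S ^ 2 = tB P l p r y)
    (hPhi : tPhi P l p r y S = 0) :
    E3 P (toS P l p r y S 0) (toS P l p r y S 1) y (toS P l p r y S 3) (toS P l p r y S 4) :=
  (dat P y).eq3 hU hV hE hK hh hS hPhi

end point

end Vale.Agent.P297.Z2
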