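import Vale.Agent.P297.H72.Z2.G6f
import Vale.Agent.P297.H288.K2.Place
import Vale.Agent.P297.H430.Z2.Deg6
import Vale.Agent.P297.H940.Z2.Inst

/-!
General numerical Godeaux surfaces with torsion of order two: for every line over the general
`(l, y)` and every node, the plane spanned by them is in general position at infinity, and the conic
of the halves in it is smooth.
-/

set_option linter.unusedSectionVars false
set_option linter.unusedVariables false
set_option linter.style.haveILetI false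

open Polynomial

namespace Vale.Agent.P297.H72.Z2

open Vale.Agent.P297.Z2 Vale.Agent.P297.H160.Z2Irr Vale.Agent.P297.H72 Vale.Agent.P297.H55Z
open Vale.Agent.P297.Gen Vale.Agent.P297.H430.Z2

section place

variable {N N₁ : Type} [Field N] [Algebra ℂ N] [Field N₁] [Algebra ℂ N₁]
  [Algebra N N₁] [IsScalarTower ℂ N N₁] {V : Plc N N₁}

theorem fin_sq {t : N₁} {a : N} (h : V.Val (t ^ 2) a) : ∃ τ, V.Val t τ := by
  by_cases h0 : t = 0
  · exact ⟨0, by rw [h0]; exact V.val_zero⟩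
  rcases V.val_or t with h1 | h1
  · exact h1
  · exfalso
    have h2 := (h1.pow 2).mul h
    rw [inv_pow, inv_mul_cancel₀ (pow_ne_zero 2 h0), zero_pow two_ne_zero, zero_mul] at h2
    exact one_ne_zero (V.val_one.unique h2)

theorem val_tB {P : Par} {l₁ p₁ r₁ y₁ : N₁} {l p r y : N} (hl : V.Val l₁ l) (hp : V.Val p₁ p)
    (hr : V.Val r₁ r) (hy : V.Val y₁ y) : V.Val (tB P l₁ p₁ r₁ y₁) (tB P l p r y) := by
  have h1 := val_pr (tB P (mk hl) (mk hp) (mk hr) (mk hy))
  rw [map_tB, map_tB] at h1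
  exact h1

/-- The value of a line over `y` is a line over `y`. -/
theorem ln_val [CharZero N] [CharZero N₁] {P : Par} {l₁ y₁ p0₁ p1₁ r0₁ r1₁ : N₁}
    {l y p0 p1 r0 r1 : N} (hl : V.Val l₁ l) (hy : V.Val y₁ y) (hp0 : V.Val p0₁ p0)
    (hp1 : V.Val p1₁ p1) (hr0 : V.Val r0₁ r0) (hr1 : V.Val r1₁ r1)
    (hL : LN P l₁ y₁ p0₁ p1₁ r0₁ r1₁) : LN P l y p0 p1 r0 r1 := by
  obtain ⟨s0, s1, s2, h⟩ := hL
  have hfin : ∀ (z₁ : N₁) (z : N), V.Val z₁ z → ∃ τ, V.Val (s0 + s1 * z₁ + s2 * z₁ ^ 2) τ := by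
    intro z₁ z hz
    apply fin_sq (a := tB P l (p0 + p1 * z) (r0 + r1 * z) y)
    rw [← h z₁]
    exact val_tB hl (hp0.add (hp1.mul hz)) (hr0.add (hr1.mul hz)) hy
  obtain ⟨τ0, h0⟩ := hfin 0 0 V.val_zero
  obtain ⟨τ1, h1⟩ := hfin 1 1 V.val_one
  obtain ⟨τ2, h2⟩ := hfin (-1) (-1) V.val_one.neg
  have v2 : V.Val (2 : N₁) (2 : N) := val_nat 2
  have n2 : (2 : N) ≠ 0 := two_ne_zero
  have m2 : (2 : N₁) ≠ 0 := two_ne_zero
  have e0 : V.Val s0 τ0 := by
    have : s0 + s1 * 0 + s2 * 0 ^ 2 = s0 := by ring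
    rwa [this] at h0
  have e1 : V.Val s1 ((τ1 - τ2) / 2) := by
    have h3 := (h1.sub h2).div v2 n2
    have : (s0 + s1 * 1 + s2 * 1 ^ 2 - (s0 + s1 * -1 + s2 * (-1) ^ 2)) / 2 = s1 := by
      field_simp
      ring
    rwa [this] at h3
  have e2 : V.Val s2 ((τ1 + τ2) / 2 - τ0) := by
    have h3 := ((h1.add h2).div v2 n2).sub e0
    have : (s0 + s1 * 1 + s2 * 1 ^ 2 + (s0 + s1 * -1 + s2 * (-1) ^ 2)) / 2 - s0 = s2 := by
      field_simp
      ring
    rwa [this] at h3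
  refine ⟨τ0, (τ1 - τ2) / 2, (τ1 + τ2) / 2 - τ0, fun z => ?_⟩
  have hz := V.val_const z
  have h3 := (e0.add (e1.mul hz)).add (e2.mul (hz.pow 2))
  have h4 := h3.pow 2
  rw [← h] at h4
  exact (val_tB hl (hp0.add (hp1.mul hz)) (hr0.add (hr1.mul hz)) hy).unique h4

end place

section main

variable {N : Type} [Field N] [Algebra ℂ N] [IsAlgClosed N] {P : Par}

theorem l_notMem {l y : N} (h : AlgebraicIndependent ℂ ![l, y]) : l ∉ cl0 ({y} : Set N) := by
  rw [mem_cl0]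
  have h1 := (IntermediateField.transcendental_adjoin_iff (F := ℂ) (E := N)).2
    (h.transcendental_adjoin (s := {1}) (i := 0) (by simp))
  have h2 : ![l, y] '' ({1} : Set (Fin 2)) = {y} := by
    rw [Set.image_singleton]
    rfl
  rw [h2] at h1
  exact h1

/-- **A place with `l → 0`, `al → 0`, `be → 1`, constant on `cl0 {y}`.** -/
theorem exists_plc0 (hP : NC P) {l y al be : N} (hi : AlgebraicIndependent ℂ ![l, y])
    (hn : IsNode P l al be) : ∃ (M : IntermediateField ℂ N) (V : Plc M N) (y' : M),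
      Transcendental ℂ y' ∧ V.Val y y' ∧ V.Val l 0 ∧ V.Val al 0 ∧ V.Val be 1 := by
  have hl : Transcendental ℂ l := hi.transcendental 0
  have hy : Transcendental ℂ y := hi.transcendental 1
  have hc := tC_of_isNode hn
  have htr := root_tr hP hl hc
  obtain ⟨hbe, hal⟩ := be_of_isNode hP hl hn
  have hle := l_eq hP htr hc
  obtain ⟨t, ht⟩ : ∃ t, t = al / be := ⟨_, rfl⟩
  rw [← ht] at hc htr hbe hal hle
  have htF : t ∉ cl0 ({y} : Set N) := by
    intro h1
    apply l_notMem hi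
    rw [hle]
    have hC : ∀ z : ℂ, algebraMap ℂ N z ∈ cl0 ({y} : Set N) := fun z =>
      (cl0 ({y} : Set N)).algebraMap_mem z
    have hq : tq P t ∈ cl0 ({y} : Set N) :=
      add_mem (sub_mem (mul_mem (hC _) (pow_mem h1 2)) (mul_mem (hC _) h1)) (hC _)
    have hg : tg P t ∈ cl0 ({y} : Set N) :=
      mul_mem h1 (sub_mem (mul_mem (hC _) h1) (hC _))
    exact div_mem hg (add_mem (mul_mem (sub_mem (one_mem _) h1) hq) hg)
  obtain ⟨M, V, hFM, -, -, hV⟩ := H288.K2.exists_place (cl0_closed ({y} : Set N)) htF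
    (zero_mem (cl0 ({y} : Set N)))
  have hV0 : V.Val t 0 := hV
  have hyM : y ∈ M := hFM (subset_cl0 _ (Set.mem_singleton y))
  have vq : V.Val (tq P t) (tq P (0 : M)) := by
    have h1 := val_pr (tq P (H55Z.mk hV0))
    rw [map_tq, map_tq] at h1
    exact h1
  have vg : V.Val (tg P t) (tg P (0 : M)) := by
    have h1 := val_pr (tg P (H55Z.mk hV0))
    rw [map_tg, map_tg] at h1
    exact h1
  have q0 : tq P (0 : M) = algebraMap ℂ M P.P2 := by
    unfold tq
    ring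
  have g0 : tg P (0 : M) = 0 := by
    unfold tg
    ring
  have hP2 : algebraMap ℂ M P.P2 ≠ 0 := (_root_.map_ne_zero _).2 hP.P2
  rw [q0] at vq
  rw [g0] at vg
  have vD : V.Val (tD P t) (algebraMap ℂ M P.P2) := by
    have h1 := ((V.val_one.sub hV0).mul vq).add vg
    rwa [sub_zero, one_mul, add_zero] at h1
  have vbe : V.Val be 1 := by
    rw [hbe]
    have h1 := vq.div vD hP2
    rwa [div_self hP2] at h1
  have vy : V.Val y (⟨y, hyM⟩ : M) := V.val_const (⟨y, hyM⟩ : M)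
  refine ⟨M, V, ⟨y, hyM⟩, ?_, vy, ?_, ?_, vbe⟩
  · intro h1
    apply hy
    exact h1.algebraMap (A := N)
  · rw [hle]
    have h1 := vg.div vD hP2
    rwa [zero_div] at h1
  · rw [hal]
    change V.Val (t * nbe P t) 0
    rw [← hbe]
    have h1 := hV0.mul vbe
    rwa [zero_mul] at h1

/-- **The direction of a line over `y` and its finiteness.** -/
theorem exists_norm [CharZero N] (hP : NC P) (hM : P.M1 = 0) (hQ1 : P.Q1 ≠ 0) {l y p0 p1 r0 r1 : N}
    {M : IntermediateField ℂ N} {V : Plc M N} {y' : M} (hy' : Transcendental ℂ y')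
    (vy : V.Val y y') (vl : V.Val l 0) (hne : p1 ≠ 0 ∨ r1 ≠ 0) (hL : LN P l y p0 p1 r0 r1) :
    p1 ≠ 0 ∧ (∃ κ, V.Val (r1 / p1) κ) ∧ ∃ ρ, V.Val (r0 - r1 / p1 * p0) ρ := by
  haveI : CharZero M := charZero_of_injective_algebraMap (algebraMap ℂ M).injective
  have hs : fa P y' + fc P y' ≠ 0 := by
    intro h0
    apply lin_tr hy' (a := 4) (b := P.Q0 + P.Q1) (by norm_num)
    unfold fa fc at h0
    rw [map_ofNat, map_add]
    linear_combination h0
  have hd : fa P y' - fc P y' ≠ 0 := by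
    intro h0
    unfold fa fc at h0
    apply hP.Q
    apply (algebraMap ℂ M).injective
    linear_combination h0
  by_cases hc : p1 ≠ 0 ∧ ∃ κ, V.Val (r1 / p1) κ
  · obtain ⟨hp, κ, hκ⟩ := hc
    refine ⟨hp, ⟨κ, hκ⟩, ?_⟩
    have h1 := hL.rep (1 / p1) (-(p0 / p1))
    rw [show p0 + p1 * -(p0 / p1) = (r0 - r1 / p1 * p0) * 0 by field_simp; ring,
      show p1 * (1 / p1) = 1 by field_simp,
      show r0 + r1 * -(p0 / p1) = (r0 - r1 / p1 * p0) * 1 by ring,
      show r1 * (1 / p1) = r1 / p1 by ring] at h1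
    refine fin_line vl vy hs hd V.val_zero V.val_one V.val_one hκ ?_ ?_ h1
    · norm_num
    · norm_num
  · exfalso
    have h2 : r1 ≠ 0 ∧ V.Val (p1 / r1) 0 := by
      by_cases hp : p1 = 0
      · have hr : r1 ≠ 0 := hne.resolve_left (not_not.2 hp)
        refine ⟨hr, ?_⟩
        rw [hp, zero_div]
        exact V.val_zero
      · have h3 : ¬ ∃ κ, V.Val (r1 / p1) κ := fun h => hc ⟨hp, h⟩
        have hr : r1 ≠ 0 := by
          rintro rfl
          apply h3
          rw [zero_div]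
          exact ⟨0, V.val_zero⟩
        refine ⟨hr, ?_⟩
        have h4 := (V.val_or (r1 / p1)).resolve_left h3
        rwa [inv_div] at h4
    obtain ⟨hr, vκ⟩ := h2
    have h1 := hL.rep (1 / r1) (-(r0 / r1))
    rw [show p0 + p1 * -(r0 / r1) = (p0 - p1 / r1 * r0) * 1 by ring,
      show p1 * (1 / r1) = p1 / r1 by ring,
      show r0 + r1 * -(r0 / r1) = (p0 - p1 / r1 * r0) * 0 by field_simp; ring,
      show r1 * (1 / r1) = 1 by field_simp] at h1
    obtain ⟨c, vc⟩ := fin_line vl vy hs hd V.val_one V.val_zero vκ V.val_one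
      (by norm_num) (by norm_num) h1
    rw [mul_one, mul_zero] at h1
    exact no_vert hM hP.P0 hP.P2 hQ1 hy' (ln_val vl vy vc vκ V.val_zero V.val_one h1)

/-- **[G6]** For every line over the general `(l, y)` and every node: the line is not in the
direction `p = const`, the plane spanned by the line and the node is in general position at
infinity, and the conic `s ^ 2 = A₂` in it is smooth. -/
theorem g6 (hP : NC P) (hM : P.M1 = 0) (hQ1 : P.Q1 ≠ 0) {l y al be p0 p1 r0 r1 s0 s1 s2 : N}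
    (hi : AlgebraicIndependent ℂ ![l, y]) (hn : IsNode P l al be)
    (hY : YLine P l y p0 p1 r0 r1 s0 s1 s2) :
    p1 ≠ 0 ∧ dg6 l al be p1 r1 ≠ 0 ∧ ∀ h c0 c1 c2 : N,
      (∀ z, (ntd P l al be).B2 (p0 - al * y + p1 * h + p1 * z) (r0 + be * y + r1 * h + r1 * z) =
        c0 + c1 * z + c2 * z ^ 2) → c1 ^ 2 - 4 * c0 * c2 ≠ 0 := by
  haveI : CharZero N := charZero_of_injective_algebraMap (algebraMap ℂ N).injective
  obtain ⟨M, V, y', hy', vy, vl, val, vbe⟩ := exists_plc0 hP hi hn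
  haveI : CharZero M := charZero_of_injective_algebraMap (algebraMap ℂ M).injective
  have hL : LN P l y p0 p1 r0 r1 := ⟨s0, s1, s2, yline_eval hY⟩
  obtain ⟨hp1, ⟨κ', vκ⟩, ⟨ρ', vρ⟩⟩ := exists_norm hP hM hQ1 hy' vy vl hY.ne hL
  obtain ⟨κ, hκ⟩ : ∃ κ, κ = r1 / p1 := ⟨_, rfl⟩
  rw [← hκ] at vκ vρ
  have hr1 : r1 = κ * p1 := by rw [hκ]; field_simp
  obtain ⟨ρ, hρ⟩ : ∃ ρ, ρ = r0 - κ * p0 := ⟨_, rfl⟩
  rw [← hρ] at vρ
  have v4 : V.Val (4 : N) (4 : M) := val_nat 4
  have v2 : V.Val (2 : N) (2 : M) := val_nat 2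
  refine ⟨hp1, ?_, ?_⟩
  · rw [dg6_four hn.sub, hr1]
    have h1 := v4.mul ((vbe.add (vl.mul vκ)).sub (val.mul (vκ.pow 2)))
    rw [zero_mul, zero_mul, add_zero, sub_zero, mul_one] at h1
    have h2 := h1.ne_zero (by norm_num)
    have h3 : 4 * (be * p1 ^ 2 + l * (p1 * (κ * p1)) - al * (κ * p1) ^ 2) =
        p1 ^ 2 * (4 * (be + l * κ - al * κ ^ 2)) := by ring
    rw [h3]
    exact mul_ne_zero (pow_ne_zero 2 hp1) h2
  · intro h c0 c1 c2 hc
    have hal := hn.al0
    have hbe := hn.be0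
    -- the letters
    obtain ⟨A, hA⟩ : ∃ A, A = algebraMap ℂ N P.P0 := ⟨_, rfl⟩
    obtain ⟨B, hB⟩ : ∃ B, B = algebraMap ℂ N P.P2 := ⟨_, rfl⟩
    obtain ⟨P1, hP1⟩ : ∃ P1, P1 = algebraMap ℂ N P.P1 := ⟨_, rfl⟩
    obtain ⟨q0, hq0⟩ : ∃ q0, q0 = algebraMap ℂ N P.Q0 := ⟨_, rfl⟩
    obtain ⟨q1, hq1⟩ : ∃ q1, q1 = algebraMap ℂ N P.Q1 := ⟨_, rfl⟩
    obtain ⟨u, hu⟩ : ∃ u, u = algebraMap ℂ N P.u := ⟨_, rfl⟩
    obtain ⟨v, hv⟩ : ∃ v, v = algebraMap ℂ N P.v := ⟨_, rfl⟩
    obtain ⟨m, hm⟩ : ∃ m, m = algebraMap ℂ N P.m := ⟨_, rfl⟩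
    obtain ⟨n, hnn⟩ : ∃ n, n = algebraMap ℂ N P.n := ⟨_, rfl⟩
    have vA : V.Val A (algebraMap ℂ M P.P0) := by rw [hA]; exact H55Z.val_alg V _
    have vB : V.Val B (algebraMap ℂ M P.P2) := by rw [hB]; exact H55Z.val_alg V _
    have vP1 : V.Val P1 (algebraMap ℂ M P.P1) := by rw [hP1]; exact H55Z.val_alg V _
    have vq0 : V.Val q0 (algebraMap ℂ M P.Q0) := by rw [hq0]; exact H55Z.val_alg V _
    have vq1 : V.Val q1 (algebraMap ℂ M P.Q1) := by rw [hq1]; exact H55Z.val_alg V _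
    have vu : V.Val u (algebraMap ℂ M P.u) := by rw [hu]; exact H55Z.val_alg V _
    have vv : V.Val v (algebraMap ℂ M P.v) := by rw [hv]; exact H55Z.val_alg V _
    have vm : V.Val m (algebraMap ℂ M P.m) := by rw [hm]; exact H55Z.val_alg V _
    have vn : V.Val n (algebraMap ℂ M P.n) := by rw [hnn]; exact H55Z.val_alg V _
    have hP2 : algebraMap ℂ M P.P2 ≠ 0 := (_root_.map_ne_zero _).2 hP.P2
    have hQ1' : algebraMap ℂ M P.Q1 ≠ 0 := (_root_.map_ne_zero _).2 hQ1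
    -- `l / al`
    obtain ⟨e, he⟩ : ∃ e, e = l / al := ⟨_, rfl⟩
    have hle : l = e * al := by rw [he]; field_simp
    have ve : V.Val e (-algebraMap ℂ M P.Q1 / algebraMap ℂ M P.P2) := by
      have w1 : V.Val (A * al ^ 2 - P1 * (al * be) + B * be ^ 2) (algebraMap ℂ M P.P2) := by
        have h1 := ((vA.mul (val.pow 2)).sub (vP1.mul (val.mul vbe))).add (vB.mul (vbe.pow 2))
        have h2 : algebraMap ℂ M P.P0 * 0 ^ 2 - algebraMap ℂ M P.P1 * (0 * 1) +
            algebraMap ℂ M P.P2 * 1 ^ 2 = algebraMap ℂ M P.P2 := by ring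
        rwa [h2] at h1
      have w2 : V.Val (be * (q0 * al - q1 * be)) (-algebraMap ℂ M P.Q1) := by
        have h1 := vbe.mul ((vq0.mul val).sub (vq1.mul vbe))
        have h2 : 1 * (algebraMap ℂ M P.Q0 * 0 - algebraMap ℂ M P.Q1 * 1) =
            -algebraMap ℂ M P.Q1 := by ring
        rwa [h2] at h1
      have h3 : e = be * (q0 * al - q1 * be) / (A * al ^ 2 - P1 * (al * be) + B * be ^ 2) := by
        rw [eq_div_iff (w1.ne_zero hP2)]
        have h4 := hn.cub
        rw [← hA, ← hB, ← hP1, ← hq0, ← hq1, hle] at h4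
        apply mul_left_cancel₀ hal
        linear_combination -h4
      rw [h3]
      exact w2.div w1 hP2
    -- the letters of `B2`
    obtain ⟨g, hg⟩ : ∃ g, g = l * (ρ + be * y + κ * (al * y)) - l * (al * u) + e * al ^ 2 * A / be +
      l * (be * v) + e * be * B := ⟨_, rfl⟩
    obtain ⟨kp, hkp⟩ : ∃ kp, kp = al * be * (q0 - l * (u + v)) + e * (be - al) * (be * B) :=
      ⟨_, rfl⟩
    obtain ⟨kr, hkr⟩ : ∃ kr, kr = al * be * (q1 - l * (u + v)) + l * (be - al) * (al * A / be) :=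
      ⟨_, rfl⟩
    obtain ⟨w0, hw0⟩ : ∃ w0, w0 = -(al * be * (m - l * n)) + 2 * l * (be - al) * B * A -
      l * (be - al) * al * be * u * v - l * (2 * be - al) * (be * B) * u -
      l * (2 * al - be) * (al * A) * v := ⟨_, rfl⟩
    obtain ⟨R, hR⟩ : ∃ R, R = ρ + be * y + κ * (al * y) := ⟨_, rfl⟩
    have vR : V.Val R (ρ' + y') := by
      rw [hR]
      have h1 := (vρ.add (vbe.mul vy)).add (vκ.mul (val.mul vy))
      rwa [zero_mul, mul_zero, add_zero, one_mul] at h1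
    have hcoef : ∀ z : N, (ntd P l al be).B2 z (κ * z + R) =
        (g ^ 2 + 4 * (al * be) * R ^ 2 + 4 * kr * R + 4 * w0) +
        (2 * (l * (1 + κ)) * g + 8 * (al * be) * (1 + κ) * R + 4 * (kp + kr * κ)) * z +
        (l ^ 2 * (1 + κ) ^ 2 + 4 * (al * be) * (1 + κ) ^ 2) * z ^ 2 := by
      intro z
      rw [hg, hkp, hkr, hw0, ← hR]
      simp only [TD.B2, TD.W, ntd, ← hA, ← hB, ← hq0, ← hq1, ← hu, ← hv, ← hm, ← hnn]
      rw [hle]
      field_simp
      ring
    obtain ⟨C0, hC0⟩ : ∃ C0, C0 = g ^ 2 + 4 * (al * be) * R ^ 2 + 4 * kr * R + 4 * w0 := ⟨_, rfl⟩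
    obtain ⟨C1, hC1⟩ : ∃ C1, C1 = 2 * (l * (1 + κ)) * g + 8 * (al * be) * (1 + κ) * R +
      4 * (kp + kr * κ) := ⟨_, rfl⟩
    obtain ⟨C2, hC2⟩ : ∃ C2, C2 = l ^ 2 * (1 + κ) ^ 2 + 4 * (al * be) * (1 + κ) ^ 2 := ⟨_, rfl⟩
    rw [← hC0, ← hC1, ← hC2] at hcoef
    have hdisc : c1 ^ 2 - 4 * c0 * c2 = p1 ^ 2 * (C1 ^ 2 - 4 * C0 * C2) := by
      have k : ∀ z, C0 + C1 * (p0 - al * y + p1 * h + p1 * z) +
          C2 * (p0 - al * y + p1 * h + p1 * z) ^ 2 = c0 + c1 * z + c2 * z ^ 2 := by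
        intro z
        rw [← hc z, ← hcoef]
        congr 1
        rw [hR, hρ, hr1]
        ring
      have k0 := k 0
      have k1 := k 1
      have k2 := k (-1)
      have j0 : c0 = C0 + C1 * (p0 - al * y + p1 * h) + C2 * (p0 - al * y + p1 * h) ^ 2 := by
        linear_combination -k0
      have j1 : c1 = p1 * (C1 + 2 * C2 * (p0 - al * y + p1 * h)) := by
        linear_combination (k2 - k1) / 2
      have j2 : c2 = C2 * p1 ^ 2 := by
        linear_combination -(k1 + k2) / 2 + k0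
      rw [j0, j1, j2]
      ring
    rw [hdisc]
    refine mul_ne_zero (pow_ne_zero 2 hp1) ?_
    -- the values
    obtain ⟨Q, hQ⟩ : ∃ Q, Q = algebraMap ℂ M P.Q1 := ⟨_, rfl⟩
    have vlb := vl.mul (V.val_one.add vκ)
    rw [zero_mul] at vlb
    have vab := val.mul vbe
    rw [zero_mul] at vab
    have vg : V.Val g (-Q) := by
      have h1 := ((((vl.mul vR).sub (vl.mul (val.mul vu))).add
        (((ve.mul (val.pow 2)).mul vA).div vbe one_ne_zero)).add (vl.mul (vbe.mul vv))).add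
        ((ve.mul vbe).mul vB)
      have h2 : 0 * (ρ' + y') - 0 * (0 * algebraMap ℂ M P.u) +
          -algebraMap ℂ M P.Q1 / algebraMap ℂ M P.P2 * 0 ^ 2 * algebraMap ℂ M P.P0 / 1 +
          0 * (1 * algebraMap ℂ M P.v) +
          -algebraMap ℂ M P.Q1 / algebraMap ℂ M P.P2 * 1 * algebraMap ℂ M P.P2 = -Q := by
        rw [hQ]
        field_simp
        ring
      rw [h2] at h1
      rw [hg, ← hR]
      exact h1
    have vkp : V.Val kp (-Q) := by
      have h1 := (vab.mul (vq0.sub (vl.mul (vu.add vv)))).add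
        ((ve.mul (vbe.sub val)).mul (vbe.mul vB))
      have h2 : 0 * (algebraMap ℂ M P.Q0 - 0 * (algebraMap ℂ M P.u + algebraMap ℂ M P.v)) +
          -algebraMap ℂ M P.Q1 / algebraMap ℂ M P.P2 * (1 - 0) * (1 * algebraMap ℂ M P.P2) =
          -Q := by
        rw [hQ]
        field_simp
        ring
      rw [h2] at h1
      rw [hkp]
      exact h1
    have vkr : V.Val kr 0 := by
      have h1 := (vab.mul (vq1.sub (vl.mul (vu.add vv)))).add
        ((vl.mul (vbe.sub val)).mul ((val.mul vA).div vbe one_ne_zero))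
      simp only [zero_mul, zero_add, zero_div, mul_zero] at h1
      rw [hkr]
      exact h1
    have vw0 : V.Val w0 0 := by
      have h1 := (((((vab.mul (vm.sub (vl.mul vn))).neg).add
        ((((v2.mul vl).mul (vbe.sub val)).mul vB).mul vA)).sub
        (((((vl.mul (vbe.sub val)).mul val).mul vbe).mul vu).mul vv)).sub
        (((vl.mul ((v2.mul vbe).sub val)).mul (vbe.mul vB)).mul vu)).sub
        (((vl.mul ((v2.mul val).sub vbe)).mul (val.mul vA)).mul vv)
      simp only [zero_mul, zero_add, mul_zero, neg_zero, sub_zero] at h1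
      rw [hw0]
      exact h1
    have vC0 : V.Val C0 (Q ^ 2) := by
      have h1 := (((vg.pow 2).add ((v4.mul vab).mul (vR.pow 2))).add ((v4.mul vkr).mul vR)).add
        (v4.mul vw0)
      simp only [zero_mul, mul_zero, add_zero, neg_sq] at h1
      rw [hC0]
      exact h1
    have v8 : V.Val (8 : N) (8 : M) := val_nat 8
    have vC1 : V.Val C1 (-(4 * Q)) := by
      have h1 := (((v2.mul vlb).mul vg).add (((v8.mul vab).mul (V.val_one.add vκ)).mul vR)).add
        (v4.mul (vkp.add (vkr.mul vκ)))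
      simp only [zero_mul, mul_zero, add_zero, zero_add, mul_neg, neg_zero] at h1
      rw [hC1]
      exact h1
    have vC2 : V.Val C2 0 := by
      have h1 := ((vl.pow 2).mul ((V.val_one.add vκ).pow 2)).add
        ((v4.mul vab).mul ((V.val_one.add vκ).pow 2))
      simp only [zero_mul, mul_zero, add_zero, ne_eq, OfNat.ofNat_ne_zero, not_false_eq_true,
        zero_pow] at h1
      rw [hC2]
      exact h1
    have vd := (vC1.pow 2).sub ((v4.mul vC0).mul vC2)
    rw [mul_zero, sub_zero] at vd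
    refine vd.ne_zero (pow_ne_zero 2 (neg_ne_zero.2 (mul_ne_zero (by norm_num) ?_)))
    rw [hQ]
    exact hQ1'

end main

end Vale.Agent.P297.H72.Z2
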