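import Vale.Agent.P297.H72.Z2.G6v
import Vale.Agent.P297.H55.Z2.Sp

/-!
General numerical Godeaux surfaces with torsion of order two: at a place with `l → 0` the lines
over `y` stay finite.
-/

set_option linter.unusedSectionVars false
set_option linter.unusedVariables false

open Polynomial

namespace Vale.Agent.P297.H72.Z2

open Vale.Agent.P297.Z2 Vale.Agent.P297.H160.Z2Irr Vale.Agent.P297.H72 Vale.Agent.P297.H55Z

section ring

variable {R : Type} [CommRing R] (D : Dat R)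

/-- the homogenised branch quartic -/
def hB (l ε p r : R) : R :=
  ((p + r) ^ 2 + ε * (D.a * p + D.c * r) - ε ^ 2 * D.m - l * (ε * (D.U * p + D.V * r) -
    ε ^ 2 * D.e) - 2 * (p * r - ε ^ 2 * D.A * D.B)) ^ 2 -
  4 * ((p * r - ε ^ 2 * D.A * D.B) ^ 2 - l * (p * r - ε ^ 2 * D.A * D.B) *
    (ε * (D.V * p) + ε ^ 2 * (D.B * D.U) + (ε * (D.U * r) + ε ^ 2 * (D.A * D.V))) +
    (l ^ 2 - l) * (ε * (D.V * p) + ε ^ 2 * (D.B * D.U)) * (ε * (D.U * r) + ε ^ 2 * (D.A * D.V)))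

theorem hB_mul (l ε p r : R) : hB D l ε (ε * p) (ε * r) = ε ^ 4 * D.Bq l p r := by
  unfold hB Dat.Bq Dat.K Dat.J0 Dat.J1 Dat.N Dat.E Dat.F
  ring

/-- the part divisible by `ε` -/
def hE (l ε p r : R) : R :=
  2 * (p ^ 2 + r ^ 2) * ((D.a * p + D.c * r) - ε * D.m - l * ((D.U * p + D.V * r) - ε * D.e) +
    2 * ε * D.A * D.B) +
  ε * ((D.a * p + D.c * r) - ε * D.m - l * ((D.U * p + D.V * r) - ε * D.e) +
    2 * ε * D.A * D.B) ^ 2 +
  8 * ε * p * r * D.A * D.B - 4 * ε ^ 3 * D.A ^ 2 * D.B ^ 2 +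
  4 * l * (p * r - ε ^ 2 * D.A * D.B) * ((D.V * p + ε * D.B * D.U) + (D.U * r + ε * D.A * D.V)) -
  4 * (l ^ 2 - l) * ε * (D.V * p + ε * D.B * D.U) * (D.U * r + ε * D.A * D.V)

theorem hB_eq (l ε p r : R) : hB D l ε p r = (p ^ 2 - r ^ 2) ^ 2 + ε * hE D l ε p r := by
  unfold hB hE
  ring

theorem hE_zero (p r : R) : hE D 0 0 p r = 2 * (p ^ 2 + r ^ 2) * (D.a * p + D.c * r) := by
  unfold hE
  ring

theorem map_hE {R' : Type} [CommRing R'] [Algebra ℂ R] [Algebra ℂ R'] (f : R →ₐ[ℂ] R') (P : Par)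
    (y l ε p r : R) :
    f (hE (dat P y) l ε p r) = hE (dat P (f y)) (f l) (f ε) (f p) (f r) := by
  rw [← map_dat]
  simp only [hE, Dat.map, map_add, map_sub, map_mul, map_pow, map_ofNat]

end ring

section place

variable {N N₁ : Type} [Field N] [Algebra ℂ N] [Field N₁] [Algebra ℂ N₁]
  [Algebra N N₁] [IsScalarTower ℂ N N₁] {V : Plc N N₁}

theorem val_hE {P : Par} {y₁ l₁ ε₁ p₁ r₁ : N₁} {y l ε p r : N} (hy : V.Val y₁ y) (hl : V.Val l₁ l)
    (hε : V.Val ε₁ ε) (hp : V.Val p₁ p) (hr : V.Val r₁ r) :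
    V.Val (hE (dat P y₁) l₁ ε₁ p₁ r₁) (hE (dat P y) l ε p r) := by
  have h1 := val_pr (hE (dat P (mk hy)) (mk hl) (mk hε) (mk hp) (mk hr))
  rw [map_hE, map_hE] at h1
  exact h1

theorem val_nat (n : ℕ) [n.AtLeastTwo] : V.Val (OfNat.ofNat n : N₁) (OfNat.ofNat n : N) := by
  have h1 := V.val_const (OfNat.ofNat n : N)
  rwa [map_ofNat] at h1

/-- **Division of a square by `ε`.** -/
theorem div_sq [CharZero N] [CharZero N₁] {ε q0 q1 q2 e0 e1 e2 e3 e4 t0 t1 t2 : N₁}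
    {a0 a1 a2 b0 b1 b2 b3 b4 : N} (hε : V.Val ε 0) (hε0 : ε ≠ 0) (hq0 : V.Val q0 a0)
    (hq1 : V.Val q1 a1) (hq2 : V.Val q2 a2) (he0 : V.Val e0 b0) (he1 : V.Val e1 b1)
    (he2 : V.Val e2 b2) (he3 : V.Val e3 b3) (he4 : V.Val e4 b4) (ha0 : a0 ≠ 0)
    (c0 : t0 ^ 2 = q0 ^ 2 + ε * e0) (c1 : 2 * t0 * t1 = 2 * q0 * q1 + ε * e1)
    (c2 : t1 ^ 2 + 2 * t0 * t2 = q1 ^ 2 + 2 * q0 * q2 + ε * e2)
    (c3 : 2 * t1 * t2 = 2 * q1 * q2 + ε * e3) (c4 : t2 ^ 2 = q2 ^ 2 + ε * e4) :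
    ∃ d0 d1 d2 : N, b0 = 2 * (a0 * d0) ∧ b1 = 2 * (a0 * d1 + a1 * d0) ∧
      b2 = 2 * (a0 * d2 + a1 * d1 + a2 * d0) ∧ b3 = 2 * (a1 * d2 + a2 * d1) ∧
      b4 = 2 * (a2 * d2) := by
  have h2 : (2 : N) ≠ 0 := two_ne_zero
  have v2 : V.Val (2 : N₁) (2 : N) := val_nat 2
  -- the main case
  have main : ∀ t0 t1 t2 : N₁, V.Val t0 a0 → t0 ^ 2 = q0 ^ 2 + ε * e0 →
      2 * t0 * t1 = 2 * q0 * q1 + ε * e1 →
      t1 ^ 2 + 2 * t0 * t2 = q1 ^ 2 + 2 * q0 * q2 + ε * e2 →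
      2 * t1 * t2 = 2 * q1 * q2 + ε * e3 → t2 ^ 2 = q2 ^ 2 + ε * e4 →
      ∃ d0 d1 d2 : N, b0 = 2 * (a0 * d0) ∧ b1 = 2 * (a0 * d1 + a1 * d0) ∧
        b2 = 2 * (a0 * d2 + a1 * d1 + a2 * d0) ∧ b3 = 2 * (a1 * d2 + a2 * d1) ∧
        b4 = 2 * (a2 * d2) := by
    intro t0 t1 t2 hv c0 c1 c2 c3 c4
    have ht0 : t0 ≠ 0 := hv.ne_zero ha0
    have hsv : V.Val (t0 + q0) (2 * a0) := by
      have := hv.add hq0
      rwa [← two_mul] at this
    have h2a : 2 * a0 ≠ 0 := mul_ne_zero h2 ha0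
    have hs0 : t0 + q0 ≠ 0 := hsv.ne_zero h2a
    obtain ⟨δ0, hδ0⟩ : ∃ δ0, δ0 = e0 / (t0 + q0) := ⟨_, rfl⟩
    have k0 : t0 - q0 = ε * δ0 := by
      rw [hδ0]
      field_simp
      linear_combination c0
    have v0 : V.Val δ0 (b0 / (2 * a0)) := by
      rw [hδ0]
      exact he0.div hsv h2a
    have h2t : (2 : N₁) * t0 ≠ 0 := mul_ne_zero two_ne_zero ht0
    have h2tv : V.Val (2 * t0) (2 * a0) := v2.mul hv
    obtain ⟨δ1, hδ1⟩ : ∃ δ1, δ1 = (e1 - 2 * q1 * δ0) / (2 * t0) := ⟨_, rfl⟩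
    have k1 : t1 - q1 = ε * δ1 := by
      rw [hδ1, mul_div_assoc', eq_div_iff h2t]
      linear_combination c1 + (-2 * q1) * k0
    have v1 : V.Val δ1 ((b1 - 2 * a1 * (b0 / (2 * a0))) / (2 * a0)) := by
      rw [hδ1]
      exact (he1.sub ((v2.mul hq1).mul v0)).div h2tv h2a
    have vt1 : V.Val t1 a1 := by
      have h3 : t1 = q1 + ε * δ1 := by linear_combination k1
      rw [h3]
      have := hq1.add (hε.mul v1)
      rwa [zero_mul, add_zero] at this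
    obtain ⟨δ2, hδ2⟩ : ∃ δ2, δ2 = (e2 - δ1 * (t1 + q1) - 2 * q2 * δ0) / (2 * t0) := ⟨_, rfl⟩
    have k2 : t2 - q2 = ε * δ2 := by
      rw [hδ2, mul_div_assoc', eq_div_iff h2t]
      linear_combination c2 - (t1 + q1) * k1 - 2 * q2 * k0
    have v2' : V.Val δ2 ((b2 - (b1 - 2 * a1 * (b0 / (2 * a0))) / (2 * a0) * (a1 + a1) -
        2 * a2 * (b0 / (2 * a0))) / (2 * a0)) := by
      rw [hδ2]
      exact ((he2.sub (v1.mul (vt1.add hq1))).sub ((v2.mul hq2).mul v0)).div h2tv h2a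
    obtain ⟨d0, hd0⟩ : ∃ d0, d0 = b0 / (2 * a0) := ⟨_, rfl⟩
    obtain ⟨d1, hd1⟩ : ∃ d1, d1 = (b1 - 2 * a1 * d0) / (2 * a0) := ⟨_, rfl⟩
    obtain ⟨d2, hd2⟩ : ∃ d2, d2 = (b2 - d1 * (a1 + a1) - 2 * a2 * d0) / (2 * a0) := ⟨_, rfl⟩
    rw [← hd0] at v0 v1 v2'
    rw [← hd1] at v1 v2'
    rw [← hd2] at v2'
    have w3 : V.Val e3 (2 * (a1 * d2 + a2 * d1)) := by
      have h3 : e3 = 2 * (q1 * δ2 + q2 * δ1) + 2 * ε * (δ1 * δ2) := by
        apply mul_left_cancel₀ hε0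
        have h4 : t1 = q1 + ε * δ1 := by linear_combination k1
        have h5 : t2 = q2 + ε * δ2 := by linear_combination k2
        rw [h4, h5] at c3
        linear_combination -c3
      rw [h3]
      have := (v2.mul ((hq1.mul v2').add (hq2.mul v1))).add ((v2.mul hε).mul (v1.mul v2'))
      rwa [mul_zero, zero_mul, add_zero] at this
    have w4 : V.Val e4 (2 * (a2 * d2)) := by
      have h3 : e4 = 2 * (q2 * δ2) + ε * δ2 ^ 2 := by
        apply mul_left_cancel₀ hε0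
        have h5 : t2 = q2 + ε * δ2 := by linear_combination k2
        rw [h5] at c4
        linear_combination -c4
      rw [h3]
      have := (v2.mul (hq2.mul v2')).add (hε.mul (v2'.pow 2))
      rwa [zero_mul, add_zero] at this
    refine ⟨d0, d1, d2, ?_, ?_, ?_, he3.unique w3, he4.unique w4⟩
    · rw [hd0]
      field_simp
    · rw [hd1]
      field_simp
      ring
    · rw [hd2]
      field_simp
      ring
  -- the value of `t0`
  have hfin : ∃ τ, V.Val t0 τ := by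
    rcases V.val_or t0 with h | h
    · exact h
    · exfalso
      have h3 : t0 ≠ 0 := by
        rintro rfl
        have h4 : V.Val (0 : N₁) (a0 ^ 2) := by
          have h5 := (hq0.pow 2).add (hε.mul he0)
          rw [zero_mul, add_zero, ← c0] at h5
          rwa [zero_pow two_ne_zero] at h5
        exact pow_ne_zero 2 ha0 (h4.unique V.val_zero)
      have h4 := (h.pow 2).mul ((hq0.pow 2).add (hε.mul he0))
      rw [← c0, inv_pow, inv_mul_cancel₀ (pow_ne_zero 2 h3), zero_pow two_ne_zero, zero_mul] at h4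
      exact one_ne_zero (V.val_one.unique h4)
  obtain ⟨τ, hτ⟩ := hfin
  have h3 : τ ^ 2 = a0 ^ 2 := by
    have h4 := hτ.pow 2
    rw [c0] at h4
    have h5 := (hq0.pow 2).add (hε.mul he0)
    rw [zero_mul, add_zero] at h5
    exact h4.unique h5
  rcases sq_eq_sq_iff_eq_or_eq_neg.1 h3 with h4 | h4
  · rw [h4] at hτ
    exact main t0 t1 t2 hτ c0 c1 c2 c3 c4
  · have h5 : V.Val (-t0) a0 := by
      have := hτ.neg
      rwa [h4, neg_neg] at this
    refine main (-t0) (-t1) (-t2) h5 ?_ ?_ ?_ ?_ ?_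
    · linear_combination c0
    · linear_combination c1
    · linear_combination c2
    · linear_combination c3
    · linear_combination c4

/-- **The lines over `y` stay finite for `l → 0`.** -/
theorem fin_line [CharZero N] [CharZero N₁] {P : Par} {l₁ y₁ ρ u₁ w₁ p₁ r₁ : N₁} {y u w p r : N}
    (hl : V.Val l₁ 0) (hy : V.Val y₁ y) (hs : fa P y + fc P y ≠ 0) (hd : fa P y - fc P y ≠ 0)
    (hu : V.Val u₁ u) (hw : V.Val w₁ w) (hp : V.Val p₁ p) (hr : V.Val r₁ r)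
    (hq : u ^ 2 - w ^ 2 ≠ 0) (hdet : u * r - w * p ≠ 0)
    (hL : LN P l₁ y₁ (ρ * u₁) p₁ (ρ * w₁) r₁) : ∃ c, V.Val ρ c := by
  by_cases hρ0 : ρ = 0
  · exact ⟨0, by rw [hρ0]; exact V.val_zero⟩
  rcases V.val_or ρ with h | hε
  · exact h
  exfalso
  obtain ⟨s0, s1, s2, h⟩ := hL
  obtain ⟨ε, hεd⟩ : ∃ ε, ε = ρ⁻¹ := ⟨_, rfl⟩
  rw [← hεd] at hε
  have hε0 : ε ≠ 0 := by rw [hεd]; exact inv_ne_zero hρ0
  have hερ : ε * ρ = 1 := by rw [hεd]; exact inv_mul_cancel₀ hρ0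
  obtain ⟨E, hE'⟩ : ∃ E : N₁ → N₁, ∀ z, E z = hE (dat P y₁) l₁ ε (u₁ + p₁ * z) (w₁ + r₁ * z) :=
    ⟨_, fun z => rfl⟩
  obtain ⟨E₀, hE₀⟩ : ∃ E₀ : N → N, ∀ z, E₀ z = 2 * ((u + p * z) ^ 2 + (w + r * z) ^ 2) *
    (fa P y * (u + p * z) + fc P y * (w + r * z)) := ⟨_, fun z => rfl⟩
  have hval : ∀ (z₁ : N₁) (z : N), V.Val z₁ z → V.Val (E z₁) (E₀ z) := by
    intro z₁ z hz
    have h1 := val_hE (P := P) hy hl hε (hu.add (hp.mul hz)) (hw.add (hr.mul hz))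
    rw [hE_zero] at h1
    rw [hE', hE₀]
    exact h1
  have key : ∀ z, (ε ^ 2 * s0 + (ε * s1) * z + s2 * z ^ 2) ^ 2 =
      ((u₁ + p₁ * z) ^ 2 - (w₁ + r₁ * z) ^ 2) ^ 2 + ε * E z := by
    intro z
    rw [hE', ← hB_eq]
    have h1 := h (ρ * z)
    have h2 := hB_mul (dat P y₁) l₁ ε (ρ * u₁ + p₁ * (ρ * z)) (ρ * w₁ + r₁ * (ρ * z))
    have h3 : ε * (ρ * u₁ + p₁ * (ρ * z)) = u₁ + p₁ * z := by
      linear_combination (u₁ + p₁ * z) * hερ
    have h4 : ε * (ρ * w₁ + r₁ * (ρ * z)) = w₁ + r₁ * z := by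
      linear_combination (w₁ + r₁ * z) * hερ
    rw [h3, h4] at h2
    rw [h2]
    change _ = ε ^ 4 * tB P l₁ (ρ * u₁ + p₁ * (ρ * z)) (ρ * w₁ + r₁ * (ρ * z)) y₁
    rw [h1]
    have h5 : ε ^ 2 * (s0 + s1 * (ρ * z) + s2 * (ρ * z) ^ 2) =
        ε ^ 2 * s0 + (ε * s1) * z + s2 * z ^ 2 := by
      linear_combination (ε * s1 * z + s2 * z ^ 2 * (ε * ρ + 1)) * hερ
    rw [← h5]
    ring
  have g0 := key 0
  have g1 := key 1
  have g2 := key (-1)
  have g3 := key 2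
  have g4 := key (-2)
  have n2 : V.Val (2 : N₁) (2 : N) := val_nat 2
  have v0 := hval 0 0 V.val_zero
  have v1 := hval 1 1 V.val_one
  have v2 := hval (-1) (-1) V.val_one.neg
  have v3 := hval 2 2 n2
  have v4 := hval (-2) (-2) n2.neg
  have m8 : V.Val (8 : N₁) (8 : N) := val_nat 8
  have m16 : V.Val (16 : N₁) (16 : N) := val_nat 16
  have m30 : V.Val (30 : N₁) (30 : N) := val_nat 30
  have m4 : V.Val (4 : N₁) (4 : N) := val_nat 4
  have m6 : V.Val (6 : N₁) (6 : N) := val_nat 6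
  have m12 : V.Val (12 : N₁) (12 : N) := val_nat 12
  have m24 : V.Val (24 : N₁) (24 : N) := val_nat 24
  have z12 : (12 : N) ≠ 0 := by norm_num
  have z24 : (24 : N) ≠ 0 := by norm_num
  have w1 := ((((m8.mul v1).sub (m8.mul v2)).sub v3).add v4).div m12 z12
  have w2 := (((((m16.mul v1).add (m16.mul v2)).sub v3).sub v4).sub (m30.mul v0)).div m24 z24
  have w3 := (((v3.sub v4).sub (n2.mul v1)).add (n2.mul v2)).div m12 z12
  have w4 := ((((v3.add v4).sub (m4.mul v1)).sub (m4.mul v2)).add (m6.mul v0)).div m24 z24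
  have q0v : V.Val (u₁ ^ 2 - w₁ ^ 2) (u ^ 2 - w ^ 2) := (hu.pow 2).sub (hw.pow 2)
  have q1v : V.Val (2 * (u₁ * p₁ - w₁ * r₁)) (2 * (u * p - w * r)) :=
    n2.mul ((hu.mul hp).sub (hw.mul hr))
  have q2v : V.Val (p₁ ^ 2 - r₁ ^ 2) (p ^ 2 - r ^ 2) := (hp.pow 2).sub (hr.pow 2)
  obtain ⟨d0, d1, d2, f0, f1, f2, f3, f4⟩ := div_sq (t0 := ε ^ 2 * s0) (t1 := ε * s1) (t2 := s2)
    hε hε0 q0v q1v q2v v0 w1 w2 w3 w4 hq
    (by linear_combination g0)
    (by linear_combination (8 * g1 - 8 * g2 - g3 + g4) / 12)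
    (by linear_combination (16 * g1 + 16 * g2 - g3 - g4 - 30 * g0) / 24)
    (by linear_combination (g3 - g4 - 2 * g1 + 2 * g2) / 12)
    (by linear_combination (g3 + g4 - 4 * g1 - 4 * g2 + 6 * g0) / 24)
  -- the cubic form is divisible by the quadratic one
  have hdiv : ∀ z : N, E₀ z = 2 * ((u + p * z) ^ 2 - (w + r * z) ^ 2) * (d0 + d1 * z + d2 * z ^ 2) := by
    intro z
    have h1 : E₀ z = E₀ 0 + (8 * E₀ 1 - 8 * E₀ (-1) - E₀ 2 + E₀ (-2)) / 12 * z +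
        (16 * E₀ 1 + 16 * E₀ (-1) - E₀ 2 - E₀ (-2) - 30 * E₀ 0) / 24 * z ^ 2 +
        (E₀ 2 - E₀ (-2) - 2 * E₀ 1 + 2 * E₀ (-1)) / 12 * z ^ 3 +
        (E₀ 2 + E₀ (-2) - 4 * E₀ 1 - 4 * E₀ (-1) + 6 * E₀ 0) / 24 * z ^ 4 := by
      simp only [hE₀]
      ring
    rw [h1]
    linear_combination f0 + z * f1 + z ^ 2 * f2 + z ^ 3 * f3 + z ^ 4 * f4
  by_cases hpr : p - r = 0
  · have hpr2 : p + r ≠ 0 := by
      intro h1
      apply hdet
      have h2 : p = 0 := by linear_combination (hpr + h1) / 2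
      have h3 : r = 0 := by linear_combination (h1 - hpr) / 2
      rw [h2, h3]
      ring
    obtain ⟨z, hz⟩ : ∃ z, z = -(u + w) / (p + r) := ⟨_, rfl⟩
    have h1 : (u + p * z) + (w + r * z) = 0 := by
      rw [hz]
      field_simp
      ring
    have h2 := hdiv z
    rw [hE₀] at h2
    have h3 : 4 * (fa P y - fc P y) * (u + p * z) ^ 3 = 0 := by
      have h4 : w + r * z = -(u + p * z) := by linear_combination h1
      rw [h4] at h2
      linear_combination h2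
    have h5 : u + p * z = 0 := by
      have h6 := (mul_eq_zero.1 h3).resolve_left (mul_ne_zero (by norm_num) hd)
      exact pow_eq_zero_iff (three_ne_zero) |>.1 h6
    apply hdet
    have h6 : (p + r) * (u + p * z) = u * r - w * p := by
      rw [hz]
      field_simp
      ring
    rw [← h6, h5, mul_zero]
  · obtain ⟨z, hz⟩ : ∃ z, z = -(u - w) / (p - r) := ⟨_, rfl⟩
    have h1 : (u + p * z) - (w + r * z) = 0 := by
      rw [hz]
      field_simp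
      ring
    have h2 := hdiv z
    rw [hE₀] at h2
    have h3 : 4 * (fa P y + fc P y) * (u + p * z) ^ 3 = 0 := by
      have h4 : w + r * z = u + p * z := by linear_combination -h1
      rw [h4] at h2
      linear_combination h2
    have h5 : u + p * z = 0 := by
      have h6 := (mul_eq_zero.1 h3).resolve_left (mul_ne_zero (by norm_num) hs)
      exact pow_eq_zero_iff (three_ne_zero) |>.1 h6
    apply hdet
    have h6 : (p - r) * (u + p * z) = -(u * r - w * p) := by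
      rw [hz]
      field_simp
      ring
    rw [h5, mul_zero] at h6
    linear_combination h6

end place

end Vale.Agent.P297.H72.Z2
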