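import Vale.Agent.P297.H424.Z2.Nodes

/-!
General numerical Godeaux surfaces with torsion of order two: the lines over `y` at `l = 0`.
At `l = 0` the branch quartic is the product of two conics.
-/

set_option linter.unusedSectionVars false
set_option linter.unusedVariables false

open Polynomial

namespace Vale.Agent.P297.H72.Z2

open Vale.Agent.P297.Z2 Vale.Agent.P297.H160.Z2Irr

section general

variable {k : Type} [Field k] [CharZero k]

theorem sq_coeffs {f0 f1 f2 g0 g1 g2 s0 s1 s2 : k}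
    (h : ∀ z : k, (f0 + f1 * z + f2 * z ^ 2) * (g0 + g1 * z + g2 * z ^ 2) =
      (s0 + s1 * z + s2 * z ^ 2) ^ 2) :
    f0 * g0 = s0 ^ 2 ∧ f0 * g1 + f1 * g0 = 2 * s0 * s1 ∧
      f0 * g2 + f1 * g1 + f2 * g0 = s1 ^ 2 + 2 * s0 * s2 ∧ f1 * g2 + f2 * g1 = 2 * s1 * s2 ∧
      f2 * g2 = s2 ^ 2 := by
  have h0 := h 0
  have h1 := h 1
  have h2 := h (-1)
  have h3 := h 2
  have h4 := h (-2)
  refine ⟨?_, ?_, ?_, ?_, ?_⟩
  · linear_combination h0
  · linear_combination (8 * h1 - 8 * h2 - h3 + h4) / 12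
  · linear_combination (16 * h1 + 16 * h2 - h3 - h4 - 30 * h0) / 24
  · linear_combination (h3 - h4 - 2 * h1 + 2 * h2) / 12
  · linear_combination (h3 + h4 - 4 * h1 - 4 * h2 + 6 * h0) / 24

end general

section tr

variable {k : Type} [Field k] [Algebra ℂ k]

theorem lin_tr {y : k} (hy : Transcendental ℂ y) {a b : ℂ} (ha : a ≠ 0)
    (h : algebraMap ℂ k a * y + algebraMap ℂ k b = 0) : False := by
  apply tr_aeval_ne hy (f := C a * X + C b)
  · intro h0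
    apply ha
    have := congrArg (fun q => q.coeff 1) h0
    simpa [coeff_X, coeff_C] using this
  · simp [h]

theorem quad_tr {y : k} (hy : Transcendental ℂ y) {a b c : ℂ} (ha : a ≠ 0)
    (h : algebraMap ℂ k a * y ^ 2 + algebraMap ℂ k b * y + algebraMap ℂ k c = 0) : False := by
  apply tr_aeval_ne hy (f := C a * X ^ 2 + C b * X + C c)
  · intro h0
    apply ha
    have := congrArg (fun q => q.coeff 2) h0
    simpa [coeff_X, coeff_C] using this
  · simp [h]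

end tr

section lines

variable {k : Type} [Field k] [Algebra ℂ k] {P : Par}

/-- A line over `y` on which the branch quartic of `T_l` is a square. -/
def LN (P : Par) (l y p0 p1 r0 r1 : k) : Prop :=
  ∃ s0 s1 s2 : k, ∀ z : k, tB P l (p0 + p1 * z) (r0 + r1 * z) y = (s0 + s1 * z + s2 * z ^ 2) ^ 2

theorem LN.rep {l y p0 p1 r0 r1 : k} (h : LN P l y p0 p1 r0 r1) (a b : k) :
    LN P l y (p0 + p1 * b) (p1 * a) (r0 + r1 * b) (r1 * a) := by
  obtain ⟨s0, s1, s2, h⟩ := h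
  refine ⟨s0 + s1 * b + s2 * b ^ 2, s1 * a + 2 * s2 * a * b, s2 * a ^ 2, fun z => ?_⟩
  have h1 := h (b + a * z)
  rw [show p0 + p1 * b + p1 * a * z = p0 + p1 * (b + a * z) by ring,
    show r0 + r1 * b + r1 * a * z = r0 + r1 * (b + a * z) by ring, h1]
  ring

/-- **At `l = 0` the branch quartic is the product of two conics.** -/
theorem tB_zero (hM : P.M1 = 0) (p r y : k) : tB P 0 p r y =
    ((p + r + y) ^ 2 + algebraMap ℂ k P.Q0 * p + algebraMap ℂ k P.Q1 * r - algebraMap ℂ k P.m) *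
    ((p + r + y) ^ 2 + algebraMap ℂ k P.Q0 * p + algebraMap ℂ k P.Q1 * r - algebraMap ℂ k P.m -
      4 * (p * r - algebraMap ℂ k P.P0 * algebraMap ℂ k P.P2)) := by
  simp only [tB, Dat.Bq, Dat.K, Dat.J0, Dat.N, dat, fa, fc, fm, hM, map_zero]
  ring

/-- **At `l = 0` there is no line in the direction `p = const`.** -/
theorem no_vert [CharZero k] (hM : P.M1 = 0) (h0 : P.P0 ≠ 0) (h2 : P.P2 ≠ 0) (h1 : P.Q1 ≠ 0)
    {y p0 : k} (hy : Transcendental ℂ y) (h : LN P 0 y p0 0 0 1) : False := by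
  obtain ⟨s0, s1, s2, h⟩ := h
  obtain ⟨A, hA⟩ : ∃ A, A = algebraMap ℂ k P.P0 := ⟨_, rfl⟩
  obtain ⟨B, hB⟩ : ∃ B, B = algebraMap ℂ k P.P2 := ⟨_, rfl⟩
  obtain ⟨q0, hq0⟩ : ∃ q0, q0 = algebraMap ℂ k P.Q0 := ⟨_, rfl⟩
  obtain ⟨q1, hq1⟩ : ∃ q1, q1 = algebraMap ℂ k P.Q1 := ⟨_, rfl⟩
  obtain ⟨m, hm⟩ : ∃ m, m = algebraMap ℂ k P.m := ⟨_, rfl⟩
  have hA0 : A ≠ 0 := by rw [hA]; exact (_root_.map_ne_zero _).2 h0
  have hB0 : B ≠ 0 := by rw [hB]; exact (_root_.map_ne_zero _).2 h2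
  have key : ∀ z : k, (((p0 + y) ^ 2 + q0 * p0 - m) + (2 * (p0 + y) + q1) * z + 1 * z ^ 2) *
      (((p0 + y) ^ 2 + q0 * p0 - m + 4 * A * B) + (2 * (p0 + y) + q1 - 4 * p0) * z + 1 * z ^ 2) =
      (s0 + s1 * z + s2 * z ^ 2) ^ 2 := by
    intro z
    rw [← h z, tB_zero hM, ← hA, ← hB, ← hq0, ← hq1, ← hm]
    ring
  obtain ⟨c0, c1, c2, c3, c4⟩ := sq_coeffs key
  obtain ⟨c, hc⟩ : ∃ c, c = 2 * y + q1 := ⟨_, rfl⟩
  obtain ⟨e, he⟩ : ∃ e, e = (p0 + y) ^ 2 + q0 * p0 - m + 2 * A * B := ⟨_, rfl⟩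
  have hs2 : s2 ^ 2 = 1 := by linear_combination -c4
  have e3 : c = s1 * s2 := by
    rw [hc]
    linear_combination c3 / 2
  have e2 : 2 * e - 4 * p0 ^ 2 = 2 * s0 * s2 := by
    have : s1 ^ 2 = c ^ 2 := by rw [e3]; linear_combination (-s1 ^ 2) * hs2
    rw [he]
    rw [hc] at this
    linear_combination c2 + this
  have eA : p0 * (2 * A * B + p0 * c) = 0 := by
    have h3 : 2 * s0 * s1 = (2 * e - 4 * p0 ^ 2) * c := by
      rw [e2, e3]
      linear_combination (-2 * s0 * s1) * hs2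
    have h4 := c1
    rw [h3, he] at h4
    rw [hc] at h4 ⊢
    linear_combination h4 / 4
  have eB : p0 ^ 2 * (e - p0 ^ 2) = A ^ 2 * B ^ 2 := by
    have h3 : 4 * s0 ^ 2 = (2 * e - 4 * p0 ^ 2) ^ 2 := by
      rw [e2]
      linear_combination (-4 * s0 ^ 2) * hs2
    rw [he] at h3 ⊢
    linear_combination (4 * c0 + h3) / 16
  rcases mul_eq_zero.1 eA with h3 | h3
  · rw [h3] at eB
    have : A ^ 2 * B ^ 2 = 0 := by linear_combination -eB
    exact mul_ne_zero (pow_ne_zero 2 hA0) (pow_ne_zero 2 hB0) this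
  · have h4 : 4 * (e - p0 ^ 2) = c ^ 2 := by
      apply mul_left_cancel₀ (mul_ne_zero (pow_ne_zero 2 hA0) (pow_ne_zero 2 hB0))
      linear_combination c ^ 2 * eB - (p0 * c - 2 * A * B) * (e - p0 ^ 2) * h3
    have h5 : 8 * q1 * y ^ 2 + (6 * q1 ^ 2 + 8 * m) * y +
        (q1 ^ 3 + 4 * m * q1 - 8 * A * B * q1 + 8 * A * B * q0) = 0 := by
      rw [he] at h4
      rw [hc] at h3 h4
      linear_combination (-(2 * y + q1)) * h4 + 4 * (2 * y + q0) * h3
    apply quad_tr hy (a := 8 * P.Q1) (b := 6 * P.Q1 ^ 2 + 8 * P.m)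
      (c := P.Q1 ^ 3 + 4 * P.m * P.Q1 - 8 * P.P0 * P.P2 * P.Q1 + 8 * P.P0 * P.P2 * P.Q0)
      (mul_ne_zero (by norm_num) h1)
    rw [hA, hB, hq0, hq1, hm] at h5
    simp only [map_add, map_sub, map_mul, map_pow, map_ofNat]
    exact h5

end lines

end Vale.Agent.P297.H72.Z2
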